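import Vale.Agent.P238.H651.Main

open MeasureTheory

universe u v

open Vale.Agent.P238 in
/-- (1) The lower bound `exp (c √(log n log log n))` for the `ℓ₁` distortion of the edit distance on
binary words of length `n`. (2) For every `1 ≤ p < ∞` and `0 < α ≤ 1`: the distortion of `ED ^ α`
in `L_p` is at least `exp (c (α / p) √(log n log log n))`. (3) The same for every normed space `Y`
whose closed unit ball has a bi-Hölder map (exponents `s`, `t`) into a Hilbert space, with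
`α min (1, t) / s` instead of `α / p`. -/
theorem Vale.Agent.Results.P238.EveryLpTarget.result :
    (∃ c : ℝ, 0 < c ∧ ∃ n₀ : ℕ, ∀ n : ℕ, n₀ ≤ n →
      Real.exp (c * Real.sqrt (Real.log n * Real.log (Real.log n))) ≤ c1 (binED n)) ∧
    (∃ c : ℝ, 0 < c ∧ ∀ p α : ℝ, 1 ≤ p → 0 < α → α ≤ 1 → ∃ n₀ : ℕ, ∀ n : ℕ, n₀ ≤ n →
      ∀ (Ω : Type u) [MeasurableSpace Ω] (μ : Measure Ω)
        (F : (Fin n → Bool) → Lp ℝ (ENNReal.ofReal p) μ) (A B : ℝ),
        (∀ x y, A * binED n x y ^ α ≤ ‖F x - F y‖ ∧ ‖F x - F y‖ ≤ B * binED n x y ^ α) →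
        A * Real.exp (c * (α / p) * Real.sqrt (Real.log n * Real.log (Real.log n))) ≤ B) ∧
    (∃ c : ℝ, 0 < c ∧ ∀ s t K α : ℝ, 0 < s → 0 < t → 0 < α → α ≤ 1 → ∃ n₀ : ℕ, ∀ n : ℕ, n₀ ≤ n →
      ∀ (Y : Type u) [NormedAddCommGroup Y] [NormedSpace ℝ Y]
        (H : Type v) [NormedAddCommGroup H] [InnerProductSpace ℝ H] (φ : Y → H),
        (∀ y z : Y, ‖y‖ ≤ 1 → ‖z‖ ≤ 1 →
          ‖y - z‖ ^ s ≤ K * ‖φ y - φ z‖ ∧ ‖φ y - φ z‖ ≤ K * ‖y - z‖ ^ t) →
        ∀ (F : (Fin n → Bool) → Y) (A B : ℝ),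
        (∀ x y, A * binED n x y ^ α ≤ ‖F x - F y‖ ∧ ‖F x - F y‖ ≤ B * binED n x y ^ α) →
        A * Real.exp (c * (α * min 1 t / s) * Real.sqrt (Real.log n * Real.log (Real.log n))) ≤
          B) :=
  ⟨Full.full_lower, H651.lp_target, H651.ball_target⟩
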