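import Vale.Agent.P238.H360.Main

open Asymptotics Vale.Agent.P238 Vale.Agent.P238.H360

/-- (1) The growth of the `ℓ₁` distortion of the edit distance on binary words of length `n`:
`log c₁ = Θ(√(log n log log n))`.
(2) Both bounds with absolute constants for all finite alphabets with at least two letters, and for
the space of all words of length at most `n`.
(3) The upper bound in explicit form.
(4) Both bounds for every snowflake `ED ^ θ`, `0 < θ ≤ 1`, and for squared Hilbert distances. -/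
theorem Vale.Agent.Results.P238.GrowthDetermined.result :
    ((fun n : ℕ => Real.log (c1 (binED n))) =Θ[Filter.atTop]
      fun n : ℕ => Real.sqrt (Real.log n * Real.log (Real.log n))) ∧
    (∃ c : ℝ, 0 < c ∧ ∃ n₀ : ℕ, ∀ (α : Type) [Finite α] [Nontrivial α] (n : ℕ), n₀ ≤ n →
      Real.exp (c * Real.sqrt (Real.log n * Real.log (Real.log n))) ≤ c1 (wordED α n) ∧
      c1 (wordED α n) ≤ c1 (upToED α n) ∧
      c1 (upToED α n) ≤ Real.exp (38 * Real.sqrt (Real.log n * Real.log (Real.log n)))) ∧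
    (∀ (α : Type) [Finite α] (n b k : ℕ), 1 ≤ n → 1 ≤ b → 2 * n ≤ b ^ k →
      c1 (upToED α n) ≤ b * (108 * ((Nat.log 2 (b ^ k) : ℝ) + 1) ^ 2) ^ k) ∧
    ∀ θ : ℝ, 0 < θ → θ ≤ 1 → ∃ c C : ℝ, 0 < c ∧ ∃ n₀ : ℕ,
      ∀ (α : Type) [Finite α] [Nontrivial α] (n : ℕ), n₀ ≤ n →
        Real.exp (c * Real.sqrt (Real.log n * Real.log (Real.log n))) ≤
          c1 (fun x y => wordED α n x y ^ θ) ∧
        c1 (fun x y => wordED α n x y ^ θ) ≤ c1 (fun x y => upToED α n x y ^ θ) ∧
        c1 (fun x y => upToED α n x y ^ θ) ≤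
          Real.exp (C * Real.sqrt (Real.log n * Real.log (Real.log n))) ∧
        (∀ (H : Type) [NormedAddCommGroup H] [InnerProductSpace ℝ H]
          (F : (Fin n → α) → H) (A B : ℝ),
          (∀ x y, A * wordED α n x y ^ θ ≤ ‖F x - F y‖ ^ 2 ∧
            ‖F x - F y‖ ^ 2 ≤ B * wordED α n x y ^ θ) →
          A * Real.exp (c * Real.sqrt (Real.log n * Real.log (Real.log n))) ≤ B) ∧
        ∃ (N : ℕ) (F : {l : List α // l.length ≤ n} → EuclideanSpace ℝ (Fin N)),
          ∀ x y, upToED α n x y ^ θ ≤ ‖F x - F y‖ ^ 2 ∧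
            ‖F x - F y‖ ^ 2 ≤ Real.exp (C * Real.sqrt (Real.log n * Real.log (Real.log n))) *
              upToED α n x y ^ θ := by
  refine ⟨growth, ?_, ?_, fun θ h0 h1 => both h0 h1⟩
  · obtain ⟨c, C, hc, n₀, h⟩ := both zero_lt_one le_rfl
    refine ⟨c, hc, max n₀ 16, fun α _ _ n hn => ?_⟩
    obtain ⟨h1, h2, _⟩ := h α n ((le_max_left _ _).trans hn)
    simp only [Real.rpow_one] at h1 h2
    obtain ⟨d, hd, hdd⟩ := upto_asymp α ((le_max_right _ _).trans hn)
    exact ⟨h1, h2, c1_le hd (Real.exp_pos _).le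
      (fun x y hxy => zero_lt_one.trans_le (upToED_pos hxy)) (fun x y => (hdd x y).1)
      (fun x y => (hdd x y).2)⟩
  · intro α _ n b k hn hb h2
    have := Fintype.ofFinite α
    have h3 := upto_upper (α := α) hn hb h2
    push_cast at h3
    exact h3
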