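import Vale.Agent.P238.H378.Final

/-- (1) The lower bound `exp (c √(log n log log n))` for the `ℓ₁` distortion of the edit distance on
binary words of length `n`. (2) One sequence of sets `W n` of words of length `n`, with
`log |W n| ≤ exp √(log n log log n)`, on which this bound already holds, for every snowflake
`ED ^ θ`, and on which the distortion is nearly the largest possible for so many points: at least
`(log |W n|) ^ a` for every `a < θ`, also for squared Hilbert distances. (3) For every `a < 1` and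
every large `N` there are exactly `N` words of one length with distortion at least
`(log N) ^ a`. -/
theorem Vale.Agent.Results.P238.NearExtremalSubsets.result :
    (∃ c : ℝ, 0 < c ∧ ∃ n₀ : ℕ, ∀ n : ℕ, n₀ ≤ n →
      Real.exp (c * Real.sqrt (Real.log n * Real.log (Real.log n))) ≤
        Vale.Agent.P238.c1 (Vale.Agent.P238.binED n)) ∧
    (∃ W : ∀ n : ℕ, Finset (Fin n → Bool),
      (∃ n₀ : ℕ, ∀ n : ℕ, n₀ ≤ n →
        Real.log (W n).card ≤ Real.exp (Real.sqrt (Real.log n * Real.log (Real.log n)))) ∧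
      ∀ θ : ℝ, 0 < θ → θ ≤ 1 →
        (∃ c : ℝ, 0 < c ∧ ∃ n₀ : ℕ, ∀ n : ℕ, n₀ ≤ n →
          Real.exp (c * Real.sqrt (Real.log n * Real.log (Real.log n))) ≤
            Vale.Agent.P238.c1 (fun x y : W n => Vale.Agent.P238.binED n x y ^ θ)) ∧
        ∀ a : ℝ, 0 < a → a < θ → ∃ n₀ : ℕ, ∀ n : ℕ, n₀ ≤ n →
          Real.log (W n).card ^ a ≤
            Vale.Agent.P238.c1 (fun x y : W n => Vale.Agent.P238.binED n x y ^ θ) ∧
          ∀ (H : Type) [NormedAddCommGroup H] [InnerProductSpace ℝ H]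
            (F : (Fin n → Bool) → H) (A B : ℝ),
            (∀ x ∈ W n, ∀ y ∈ W n, A * Vale.Agent.P238.binED n x y ^ θ ≤ ‖F x - F y‖ ^ 2 ∧
              ‖F x - F y‖ ^ 2 ≤ B * Vale.Agent.P238.binED n x y ^ θ) →
            A * Real.log (W n).card ^ a ≤ B) ∧
    (∀ a : ℝ, 0 < a → a < 1 → ∃ N₀ : ℕ, ∀ N : ℕ, N₀ ≤ N →
      ∃ (n : ℕ) (S : Finset (Fin n → Bool)), S.card = N ∧
        Real.log N ^ a ≤ Vale.Agent.P238.c1 (fun x y : S => Vale.Agent.P238.binED n x y)) := by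
  refine ⟨Vale.Agent.P238.Full.full_lower, ?_, ?_⟩
  · obtain ⟨W, hW, hmain⟩ := Vale.Agent.P238.H378.exists_sets
    refine ⟨W, hW, fun θ hθ0 hθ1 => ⟨?_, fun a ha0 haθ => ?_⟩⟩
    · obtain ⟨c, hc, n₀, h⟩ := (hmain θ hθ0 hθ1).1
      exact ⟨c, hc, n₀, fun n hn => (h n hn).le_c1 hθ0⟩
    · obtain ⟨n₀, h⟩ := (hmain θ hθ0 hθ1).2 a ha0 haθ
      refine ⟨n₀, fun n hn => ⟨(h n hn).le_c1 hθ0, fun H _ _ F A B hF => ?_⟩⟩
      exact (h n hn).hilbert (Real.rpow_nonneg (Real.log_natCast_nonneg _) _) F A B hF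
  · intro a ha0 ha1
    obtain ⟨N₀, h⟩ := Vale.Agent.P238.H378.exists_card ha0 ha1 le_rfl
    refine ⟨N₀, fun N hN => ?_⟩
    obtain ⟨n, S, hS, hLB⟩ := h N hN
    refine ⟨n, S, hS, ?_⟩
    have h1 := hLB.le_c1 one_pos
    simpa only [Real.rpow_one] using h1
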