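import Vale.Agent.P238.H142.Final

open MeasureTheory

/-- (1) The lower bound `exp (c √(log n log log n))` for the `ℓ₁` distortion of the edit distance on
binary words of length `n`. (2) The same bound for every snowflake `ED ^ θ`, `0 < θ ≤ 1`.
(3) The same bound for the distortion of `ED ^ θ` in squared Hilbert distances.
(4) One sequence of distributions `π n` on pairs of distinct words of length `n` for which all this
holds on average, for all `θ`, for squared Hilbert distances and for `L_p`, `1 ≤ p ≤ 2`. -/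
theorem Vale.Agent.Results.P238.NegativeTypeSnowflakes.result :
    (∃ c : ℝ, 0 < c ∧ ∃ n₀ : ℕ, ∀ n : ℕ, n₀ ≤ n →
      Real.exp (c * Real.sqrt (Real.log n * Real.log (Real.log n))) ≤
        Vale.Agent.P238.c1 (Vale.Agent.P238.binED n)) ∧
    (∀ θ : ℝ, 0 < θ → θ ≤ 1 → ∃ c : ℝ, 0 < c ∧ ∃ n₀ : ℕ, ∀ n : ℕ, n₀ ≤ n →
      Real.exp (c * Real.sqrt (Real.log n * Real.log (Real.log n))) ≤
        Vale.Agent.P238.c1 (fun x y => Vale.Agent.P238.binED n x y ^ θ)) ∧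
    (∀ θ : ℝ, 0 < θ → θ ≤ 1 → ∃ c : ℝ, 0 < c ∧ ∃ n₀ : ℕ, ∀ n : ℕ, n₀ ≤ n →
      ∀ (H : Type) [NormedAddCommGroup H] [InnerProductSpace ℝ H]
        (F : (Fin n → Bool) → H) (A B : ℝ),
        (∀ x y, A * Vale.Agent.P238.binED n x y ^ θ ≤ ‖F x - F y‖ ^ 2 ∧
          ‖F x - F y‖ ^ 2 ≤ B * Vale.Agent.P238.binED n x y ^ θ) →
        A * Real.exp (c * Real.sqrt (Real.log n * Real.log (Real.log n))) ≤ B) ∧
    ∃ (N₀ : ℕ) (π : ∀ n : ℕ, (Fin n → Bool) → (Fin n → Bool) → ℝ),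
      (∀ n, N₀ ≤ n → (∀ x y, 0 ≤ π n x y) ∧ (∀ x, π n x x = 0) ∧ ∑ x, ∑ y, π n x y = 1) ∧
      ∀ θ : ℝ, 0 < θ → θ ≤ 1 → ∃ c : ℝ, 0 < c ∧ ∃ n₀ : ℕ, ∀ n : ℕ, n₀ ≤ n →
        (∀ (H : Type) [NormedAddCommGroup H] [InnerProductSpace ℝ H]
          (F : (Fin n → Bool) → H) (B : ℝ),
          (∀ x y, ‖F x - F y‖ ^ 2 ≤ B * Vale.Agent.P238.binED n x y ^ θ) →
          ∑ x, ∑ y, π n x y * ‖F x - F y‖ ^ 2 ≤
            Real.exp (-(c * Real.sqrt (Real.log n * Real.log (Real.log n)))) *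
              (B * ∑ x, ∑ y, π n x y * Vale.Agent.P238.binED n x y ^ θ)) ∧
        (∀ (Ω : Type) [MeasurableSpace Ω] (μ : Measure Ω) (p : ℝ), 1 ≤ p → p ≤ 2 →
          ∀ (F : (Fin n → Bool) → Lp ℝ (ENNReal.ofReal p) μ) (B : ℝ),
          (∀ x y, ‖F x - F y‖ ≤ B * Vale.Agent.P238.binED n x y ^ θ) →
          ∑ x, ∑ y, π n x y * ‖F x - F y‖ ≤
            Real.exp (-(c * Real.sqrt (Real.log n * Real.log (Real.log n)))) *
              (B * ∑ x, ∑ y, π n x y * Vale.Agent.P238.binED n x y ^ θ)) := by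
  classical
  obtain ⟨N₀, π, hπ, hmain⟩ := Vale.Agent.P238.H142.main_neg
  refine ⟨Vale.Agent.P238.Full.full_lower, ?_, ?_, N₀, π, hπ, ?_⟩
  · intro θ h0 h1
    obtain ⟨c, hc, n₀, hn₀, h⟩ := hmain θ h0 h1
    refine ⟨c, hc, n₀, fun n hn => ?_⟩
    obtain ⟨p0, p1, p2⟩ := hπ n (hn₀.trans hn)
    have := Vale.Agent.P238.H142.c1_of_pi h0 (Real.exp_pos _) p0 p1 p2 (h n hn)
    rwa [Real.exp_neg, inv_inv] at this
  · intro θ h0 h1
    obtain ⟨c, hc, n₀, hn₀, h⟩ := hmain θ h0 h1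
    refine ⟨c, hc, n₀ + 1, fun n hn H _ _ F A B hAB => ?_⟩
    have hn1 : 1 ≤ n := by omega
    obtain ⟨p0, p1, p2⟩ := hπ n (hn₀.trans (by omega))
    have hB : 0 ≤ B := Vale.Agent.P238.H142.const_nonneg hn1 (fun x y => by positivity)
      (fun x y => (hAB x y).2)
    exact Vale.Agent.P238.H142.dist_of_pi p0 p1 p2
      (h n (by omega) _ (Vale.Agent.P238.H474.neg_sq F) B hB (fun x y => (hAB x y).2))
      (fun x y => (hAB x y).1)
  · intro θ h0 h1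
    obtain ⟨c, hc, n₀, hn₀, h⟩ := hmain θ h0 h1
    refine ⟨c, hc, n₀ + 1, fun n hn => ⟨fun H _ _ F B hB => ?_, fun Ω _ μ p hp1 hp2 F B hB => ?_⟩⟩
    · have hn1 : 1 ≤ n := by omega
      exact h n (by omega) _ (Vale.Agent.P238.H474.neg_sq F) B
        (Vale.Agent.P238.H142.const_nonneg hn1 (fun x y => by positivity) hB) hB
    · have hn1 : 1 ≤ n := by omega
      have hneg := Vale.Agent.P238.H474.neg_Lp μ hp1 hp2 F
      exact h n (by omega) _ hneg B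
        (Vale.Agent.P238.H142.const_nonneg hn1 (fun x y => hneg.nonneg x y) hB) hB
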